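import Vale.Agent.P042.WA.W4.Fourier
import Vale.Agent.P042.WA.W1.Main
set_option autoImplicit false

/-! W4, part 2: elementary counting on the plane curve. -/

namespace Vale.Agent.P042.WA

open Polynomial

namespace W4P

variable {p : ℕ} [Fact p.Prime]

/-- the points of the curve -/
noncomputable def Cu (F : (ZMod p)[X][X]) : Finset (ZMod p × ZMod p) :=
  Finset.univ.filter (fun P => evXY F P.1 P.2 = 0)

lemma mem_Cu (F : (ZMod p)[X][X]) (P : ZMod p × ZMod p) : P ∈ Cu F ↔ evXY F P.1 P.2 = 0 := by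
  rw [Cu, Finset.mem_filter]
  exact ⟨fun h => h.2, fun h => ⟨Finset.mem_univ _, h⟩⟩

lemma fib {h : (ZMod p)[X]} {F : (ZMod p)[X][X]} {d : ℕ} (hF : GoodFac h F d) (x : ZMod p) :
    (Finset.univ.filter (fun z => evXY F x z = 0)).card ≤ d := by
  classical
  set G : (ZMod p)[X] := F.map (evalRingHom x) with hG
  have hGm : G.Monic := hF.monic.map _
  have hGd : G.natDegree = d := by rw [hG, hF.monic.natDegree_map, hF.deg]
  have hsub : Finset.univ.filter (fun z => evXY F x z = 0) ⊆ G.roots.toFinset := by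
    intro z hz
    rw [Finset.mem_filter] at hz
    rw [Multiset.mem_toFinset, mem_roots hGm.ne_zero, IsRoot.def, hG, map_evalRingHom_eval]
    exact hz.2
  refine (Finset.card_le_card hsub).trans ((Multiset.toFinset_card_le _).trans ?_)
  rw [← hGd]
  exact card_roots' _

lemma rootcount {h : (ZMod p)[X]} (hk : 1 ≤ h.natDegree) (c : ZMod p) :
    (Finset.univ.filter (fun z => h.eval z = c)).card ≤ h.natDegree := by
  classical
  have hne : h - C c ≠ 0 := by
    intro h0
    have : h = C c := sub_eq_zero.mp h0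
    rw [this, natDegree_C] at hk
    omega
  have hsub : Finset.univ.filter (fun z => h.eval z = c) ⊆ (h - C c).roots.toFinset := by
    intro z hz
    rw [Finset.mem_filter] at hz
    rw [Multiset.mem_toFinset, mem_roots hne, IsRoot.def, eval_sub, eval_C, hz.2, sub_self]
  refine (Finset.card_le_card hsub).trans ((Multiset.toFinset_card_le _).trans ?_)
  refine (card_roots' _).trans ?_
  rw [natDegree_sub_C]

lemma on_curve {h : (ZMod p)[X]} {F : (ZMod p)[X][X]} {d : ℕ} (hF : GoodFac h F d) {x z : ZMod p}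
    (hxz : evXY F x z = 0) : h.eval x + h.eval z = 0 := by
  obtain ⟨Q, hQ⟩ := hF.dvd
  rw [← W1P.evXY_HH, hQ, W1P.evXY_mul, hxz, zero_mul]

/-- counting a subset of a product by fibres over the first coordinate -/
lemma card_fib {A B : Type} [DecidableEq A] (S : Finset (A × B)) (T : Finset A) (m : ℕ)
    (hT : ∀ P ∈ S, P.1 ∈ T)
    (hm : ∀ a, (S.filter (fun P => P.1 = a)).card ≤ m) : S.card ≤ T.card * m := by
  rw [Finset.card_eq_sum_card_fiberwise (f := Prod.fst) (t := T) (fun P hP => hT P hP)]
  refine (Finset.sum_le_sum fun a _ => hm a).trans ?_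
  rw [Finset.sum_const, smul_eq_mul]

lemma fib_Cu {h : (ZMod p)[X]} {F : (ZMod p)[X][X]} {d : ℕ} (hF : GoodFac h F d) (x : ZMod p) :
    ((Cu F).filter (fun P => P.1 = x)).card ≤ d := by
  classical
  refine le_trans ?_ (fib hF x)
  refine Finset.card_le_card_of_injOn Prod.snd ?_ ?_
  · intro P hP
    rw [Finset.mem_coe, Finset.mem_filter, mem_Cu] at hP
    rw [Finset.mem_coe, Finset.mem_filter]
    refine ⟨Finset.mem_univ _, ?_⟩
    rw [← hP.2]
    exact hP.1
  · intro P hP Q hQ hPQ
    rw [Finset.mem_coe, Finset.mem_filter] at hP hQ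
    exact Prod.ext (hP.2.trans hQ.2.symm) hPQ

lemma card_Cu_le {h : (ZMod p)[X]} {F : (ZMod p)[X][X]} {d : ℕ} (hF : GoodFac h F d) :
    (Cu F).card ≤ p * d := by
  have := card_fib (Cu F) Finset.univ d (fun _ _ => Finset.mem_univ _) (fib_Cu hF)
  rwa [Finset.card_univ, ZMod.card] at this

/-- points of the curve over a set of abscissae -/
lemma card_Cu_filter {h : (ZMod p)[X]} {F : (ZMod p)[X][X]} {d : ℕ} (hF : GoodFac h F d)
    (T : Finset (ZMod p)) : ((Cu F).filter (fun P => P.1 ∈ T)).card ≤ T.card * d := by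
  classical
  refine card_fib _ T d (fun P hP => (Finset.mem_filter.mp hP).2) (fun a => ?_)
  refine le_trans (Finset.card_le_card ?_) (fib_Cu hF a)
  intro P hP
  rw [Finset.mem_filter, Finset.mem_filter] at hP
  rw [Finset.mem_filter]
  exact ⟨hP.1.1, hP.2⟩

/-- trivial bound for the number of pairs -/
lemma NN_triv {h : (ZMod p)[X]} {F : (ZMod p)[X][X]} {d : ℕ} (hF : GoodFac h F d)
    (hk : 1 ≤ h.natDegree) (s : ZMod p) :
    NN (Cu F) (fun P => h.eval P.1) s ≤ (p * d) * (h.natDegree * d) := by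
  classical
  unfold NN
  refine (card_fib _ (Cu F) (h.natDegree * d) ?_ ?_).trans
    (Nat.mul_le_mul_right _ (card_Cu_le hF))
  · intro P hP
    rw [Finset.mem_filter, Finset.mem_product] at hP
    exact hP.1.1
  · intro P
    have h1 : ((Cu F).filter (fun Q => Q.1 ∈ Finset.univ.filter
        (fun z => h.eval z = h.eval P.1 + s))).card ≤ h.natDegree * d :=
      (card_Cu_filter hF _).trans (Nat.mul_le_mul_right _ (rootcount hk _))
    refine le_trans ?_ h1
    refine Finset.card_le_card_of_injOn Prod.snd ?_ ?_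
    · intro Q hQ
      rw [Finset.mem_coe, Finset.mem_filter, Finset.mem_filter, Finset.mem_product] at hQ
      rw [Finset.mem_coe, Finset.mem_filter, Finset.mem_filter]
      refine ⟨hQ.1.1.2, Finset.mem_univ _, ?_⟩
      have h2 : h.eval Q.2.1 = h.eval Q.1.1 + s := hQ.1.2
      rw [h2, hQ.2]
    · intro Q hQ R hR hQR
      rw [Finset.mem_coe, Finset.mem_filter] at hQ hR
      exact Prod.ext (hQ.2.trans hR.2.symm) hQR

/-- number of bad shifts -/
lemma bad_card {h : (ZMod p)[X]} (hne : derivative h ≠ 0) (hk : 1 ≤ h.natDegree)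
    (B : Finset (ZMod p))
    (hB : ∀ s ∈ B, Bad (h.map (algebraMap (ZMod p) (AlgebraicClosure (ZMod p))))
        (algebraMap (ZMod p) (AlgebraicClosure (ZMod p)) s)) :
    B.card ≤ 3 * (h.natDegree * h.natDegree) := by
  classical
  set ι := algebraMap (ZMod p) (AlgebraicClosure (ZMod p)) with hι
  have hιinj : Function.Injective ι := ι.injective
  set R : Finset (AlgebraicClosure (ZMod p)) := (derivative (h.map ι)).roots.toFinset with hR
  have hne' : derivative (h.map ι) ≠ 0 := by
    rw [derivative_map]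
    exact (Polynomial.map_ne_zero_iff hιinj).mpr hne
  have hRc : R.card ≤ h.natDegree := by
    refine (Multiset.toFinset_card_le _).trans ((card_roots' _).trans ?_)
    refine (natDegree_derivative_le _).trans ?_
    rw [natDegree_map_eq_of_injective hιinj]
    omega
  set T : Finset (AlgebraicClosure (ZMod p)) :=
    ((R ×ˢ R).image (fun c => (h.map ι).eval c.1 - (h.map ι).eval c.2)) ∪
    (((R ×ˢ R).image (fun c => (h.map ι).eval c.1 + (h.map ι).eval c.2)) ∪
    ((R ×ˢ R).image (fun c => - (h.map ι).eval c.1 - (h.map ι).eval c.2))) with hT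
  have hTc : T.card ≤ 3 * (h.natDegree * h.natDegree) := by
    have h1 : (R ×ˢ R).card ≤ h.natDegree * h.natDegree := by
      rw [Finset.card_product]
      exact Nat.mul_le_mul hRc hRc
    have h2 := Finset.card_union_le ((R ×ˢ R).image
        (fun c => (h.map ι).eval c.1 - (h.map ι).eval c.2))
      (((R ×ˢ R).image (fun c => (h.map ι).eval c.1 + (h.map ι).eval c.2)) ∪
      ((R ×ˢ R).image (fun c => - (h.map ι).eval c.1 - (h.map ι).eval c.2)))
    have h3 := Finset.card_union_le
      ((R ×ˢ R).image (fun c => (h.map ι).eval c.1 + (h.map ι).eval c.2))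
      ((R ×ˢ R).image (fun c => - (h.map ι).eval c.1 - (h.map ι).eval c.2))
    have h4 := Finset.card_image_le (s := R ×ˢ R)
      (f := fun c => (h.map ι).eval c.1 - (h.map ι).eval c.2)
    have h5 := Finset.card_image_le (s := R ×ˢ R)
      (f := fun c => (h.map ι).eval c.1 + (h.map ι).eval c.2)
    have h6 := Finset.card_image_le (s := R ×ˢ R)
      (f := fun c => - (h.map ι).eval c.1 - (h.map ι).eval c.2)
    rw [hT]
    omega
  rw [← Finset.card_image_of_injective B hιinj]
  refine (Finset.card_le_card ?_).trans hTc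
  intro y hy
  rw [Finset.mem_image] at hy
  obtain ⟨s, hs, rfl⟩ := hy
  obtain ⟨c, c', hc, hc', hs'⟩ := hB s hs
  have hcR : c ∈ R := by
    rw [hR, Multiset.mem_toFinset, mem_roots hne']; exact hc
  have hcR' : c' ∈ R := by
    rw [hR, Multiset.mem_toFinset, mem_roots hne']; exact hc'
  have hcc : (c, c') ∈ R ×ˢ R := Finset.mem_product.mpr ⟨hcR, hcR'⟩
  rw [hT, Finset.mem_union, Finset.mem_union, Finset.mem_image, Finset.mem_image,
    Finset.mem_image]
  rcases hs' with h1 | h1 | h1
  · exact Or.inl ⟨(c, c'), hcc, h1.symm⟩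
  · exact Or.inr (Or.inl ⟨(c, c'), hcc, h1.symm⟩)
  · exact Or.inr (Or.inr ⟨(c, c'), hcc, h1.symm⟩)

end W4P

end Vale.Agent.P042.WA
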