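import Vale.Agent.P042.WA.Spec
import Mathlib.Analysis.SpecialFunctions.Complex.CircleAddChar
import Mathlib.NumberTheory.LegendreSymbol.AddCharacter
set_option autoImplicit false

/-! W4, part 1: the Fourier side. -/

namespace Vale.Agent.P042.WA

open Polynomial

namespace W4P

variable {p : ℕ} [Fact p.Prime]

lemma ep_eq (t : ZMod p) : ep p t = ZMod.stdAddChar t := by
  have h1 : ZMod.stdAddChar ((t.val : ℤ) : ZMod p) =
      Complex.exp (2 * Real.pi * Complex.I * (t.val : ℤ) / p) := ZMod.stdAddChar_coe _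
  have h2 : ((t.val : ℤ) : ZMod p) = t := by
    rw [Int.cast_natCast]; exact ZMod.natCast_zmod_val t
  rw [h2] at h1
  rw [h1, ep]
  congr 1
  push_cast
  ring

lemma ep_add (s t : ZMod p) : ep p (s + t) = ep p s * ep p t := by
  rw [ep_eq, ep_eq, ep_eq, AddChar.map_add_eq_mul]

lemma ep_norm (t : ZMod p) : ‖ep p t‖ = 1 := by
  rw [ep_eq, ZMod.stdAddChar_apply]
  exact Circle.norm_coe _

lemma ep_conj (t : ZMod p) : (starRingEnd ℂ) (ep p t) = ep p (-t) := by
  rw [ep_eq, ep_eq, ZMod.stdAddChar_apply, ZMod.stdAddChar_apply, AddChar.map_neg_eq_inv,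
    Circle.coe_inv_eq_conj]

lemma ep_sum {a : ZMod p} (ha : a ≠ 0) : ∑ s : ZMod p, ep p (a * s) = 0 := by
  have h := AddChar.sum_mulShift (R := ZMod p) (ψ := ZMod.stdAddChar) a
    (ZMod.isPrimitive_stdAddChar p)
  rw [if_neg ha] at h
  rw [← Nat.cast_zero, ← h]
  refine Finset.sum_congr rfl fun s _ => ?_
  rw [ep_eq, mul_comm]

variable {X : Type}

/-- number of pairs with `g` difference `s` -/
def NN (C : Finset X) (g : X → ZMod p) (s : ZMod p) : ℕ :=
  ((C ×ˢ C).filter (fun P => g P.2 = g P.1 + s)).card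

lemma sum_NN (C : Finset X) (g : X → ZMod p) : ∑ s, NN C g s = C.card * C.card := by
  unfold NN
  rw [← Finset.card_product]
  rw [Finset.card_eq_sum_card_fiberwise (f := fun P : X × X => g P.2 - g P.1) (t := Finset.univ)
    (fun _ _ => Finset.mem_coe.mpr (Finset.mem_univ _))]
  refine Finset.sum_congr rfl fun s _ => ?_
  congr 1
  refine Finset.filter_congr fun P _ => ?_
  constructor
  · intro h; rw [h]; ring
  · intro h; rw [← h]; ring

lemma normSq_eq (C : Finset X) (g : X → ZMod p) (a : ZMod p) :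
    ((‖∑ P ∈ C, ep p (a * g P)‖ ^ 2 : ℝ) : ℂ) = ∑ s, (NN C g s : ℂ) * ep p (a * s) := by
  have h1 : ((‖∑ P ∈ C, ep p (a * g P)‖ ^ 2 : ℝ) : ℂ) =
      (starRingEnd ℂ) (∑ P ∈ C, ep p (a * g P)) * (∑ P ∈ C, ep p (a * g P)) := by
    rw [Complex.conj_mul']
    push_cast
    rfl
  rw [h1, map_sum, Finset.sum_mul_sum, ← Finset.sum_product']
  have h2 : ∀ P ∈ C ×ˢ C, (starRingEnd ℂ) (ep p (a * g P.1)) * ep p (a * g P.2) =
      ep p (a * (g P.2 - g P.1)) := by
    intro P _
    rw [ep_conj, ← ep_add]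
    congr 1
    ring
  rw [Finset.sum_congr rfl h2]
  rw [← Finset.sum_fiberwise_of_maps_to (g := fun P : X × X => g P.2 - g P.1) (t := Finset.univ)
    (fun _ _ => Finset.mem_univ _)]
  refine Finset.sum_congr rfl fun s _ => ?_
  have h3 : (C ×ˢ C).filter (fun P => g P.2 - g P.1 = s) =
      (C ×ˢ C).filter (fun P => g P.2 = g P.1 + s) := by
    refine Finset.filter_congr fun P _ => ?_
    constructor
    · intro h; rw [← h]; ring
    · intro h; rw [h]; ring
  rw [Finset.sum_congr rfl (g := fun _ => ep p (a * s)), Finset.sum_const, h3, NN, nsmul_eq_mul]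
  intro P hP
  rw [(Finset.mem_filter.mp hP).2]

/-- the abstract core: control of the exponential sum by the counts of the differences. -/
lemma core (C : Finset X) (g : X → ZMod p) (B : Finset (ZMod p)) (K₁ K₂ K₃ b : ℝ)
    (hK₂ : 0 ≤ K₂) (hK₃ : 0 ≤ K₃)
    (hB : (B.card : ℝ) ≤ b)
    (hlow : (p : ℝ) - K₁ * Real.sqrt p ≤ C.card)
    (hup : ∀ s, s ∉ B → (NN C g s : ℝ) ≤ p + K₂ * Real.sqrt p)
    (htriv : ∀ s, (NN C g s : ℝ) ≤ K₃ * p)
    (a : ZMod p) (ha : a ≠ 0) :
    ‖∑ P ∈ C, ep p (a * g P)‖ ^ 2 ≤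
      (2 * K₁ + 2 * K₂ ) * (p * Real.sqrt p) + 2 * b * K₃ * p := by
  have hp0 : (0 : ℝ) ≤ p := Nat.cast_nonneg _
  have hsq : 0 ≤ Real.sqrt p := Real.sqrt_nonneg _
  -- step 1
  have h1 : ‖∑ P ∈ C, ep p (a * g P)‖ ^ 2 ≤ ∑ s, |(NN C g s : ℝ) - p| := by
    have h2 := normSq_eq C g a
    have h3 : ∑ s, (NN C g s : ℂ) * ep p (a * s) =
        ∑ s, (((NN C g s : ℝ) - p : ℝ) : ℂ) * ep p (a * s) := by
      have h4 : ∑ s, (((NN C g s : ℝ) - p : ℝ) : ℂ) * ep p (a * s) =
          ∑ s, (NN C g s : ℂ) * ep p (a * s) - (p : ℂ) * ∑ s, ep p (a * s) := by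
        rw [Finset.mul_sum, ← Finset.sum_sub_distrib]
        refine Finset.sum_congr rfl fun s _ => ?_
        push_cast
        ring
      rw [h4, ep_sum ha, mul_zero, sub_zero]
    rw [h3] at h2
    have h5 : ‖((‖∑ P ∈ C, ep p (a * g P)‖ ^ 2 : ℝ) : ℂ)‖ ≤ ∑ s, |(NN C g s : ℝ) - p| := by
      rw [h2]
      refine (norm_sum_le _ _).trans (Finset.sum_le_sum fun s _ => ?_)
      rw [norm_mul, ep_norm, mul_one, Complex.norm_real, Real.norm_eq_abs]
    rw [Complex.norm_real, Real.norm_of_nonneg (by positivity)] at h5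
    exact h5
  -- step 2
  have h6 : ∀ s, |(NN C g s : ℝ) - p| ≤
      (p + 2 * K₂ * Real.sqrt p - NN C g s) + (if s ∈ B then 2 * K₃ * p else 0) := by
    intro s
    have hK : 0 ≤ K₂ * Real.sqrt p := mul_nonneg hK₂ hsq
    by_cases hs : s ∈ B
    · rw [if_pos hs]
      have := htriv s
      have hN : (0 : ℝ) ≤ NN C g s := Nat.cast_nonneg _
      rw [abs_le]
      constructor <;> nlinarith
    · rw [if_neg hs]
      have := hup s hs
      rw [abs_le]
      constructor <;> nlinarith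
  have h7 : ∑ s, |(NN C g s : ℝ) - p| ≤
      p * (p + 2 * K₂ * Real.sqrt p) - (C.card : ℝ) * C.card + B.card * (2 * K₃ * p) := by
    refine (Finset.sum_le_sum fun s _ => h6 s).trans ?_
    rw [Finset.sum_add_distrib, Finset.sum_sub_distrib, Finset.sum_const, Finset.card_univ,
      ZMod.card, nsmul_eq_mul, ← Finset.sum_filter, Finset.filter_mem_eq_inter, Finset.univ_inter,
      Finset.sum_const, nsmul_eq_mul]
    have h8 : ∑ s, (NN C g s : ℝ) = (C.card : ℝ) * C.card := by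
      have := sum_NN C g
      exact_mod_cast this
    rw [h8]
  have h9 : (p : ℝ) * p - 2 * K₁ * (p * Real.sqrt p) ≤ (C.card : ℝ) * C.card := by
    nlinarith [sq_nonneg ((C.card : ℝ) - p), mul_le_mul_of_nonneg_left hlow hp0]
  have h10 : (B.card : ℝ) * (2 * K₃ * p) ≤ b * (2 * K₃ * p) :=
    mul_le_mul_of_nonneg_right hB (by positivity)
  nlinarith

end W4P

end Vale.Agent.P042.WA
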