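import Vale.Agent.P042.WA.W4.Count
set_option autoImplicit false

/-! W4: even weights. -/

namespace Vale.Agent.P042.WA

open Polynomial

namespace W4P

variable {p : ℕ} [Fact p.Prime]

/-- the good points of the curve -/
noncomputable def Cg (h : (ZMod p)[X]) (F : (ZMod p)[X][X]) : Finset (ZMod p × ZMod p) :=
  (Cu F).filter (fun P => h.derivative.eval P.1 ≠ 0 ∧ h.derivative.eval P.2 ≠ 0)

lemma mem_Cg (h : (ZMod p)[X]) (F : (ZMod p)[X][X]) (P : ZMod p × ZMod p) :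
    P ∈ Cg h F ↔ evXY F P.1 P.2 = 0 ∧ h.derivative.eval P.1 ≠ 0 ∧ h.derivative.eval P.2 ≠ 0 := by
  rw [Cg, Finset.mem_filter, mem_Cu]

/-- the sum over the good points is real -/
lemma real_sum {h : (ZMod p)[X]} {F : (ZMod p)[X][X]} {d : ℕ} (hF : GoodFac h F d)
    (hsym : ∀ x y : ZMod p, evXY F x y = 0 ↔ evXY F y x = 0) (a : ZMod p) :
    (∑ P ∈ Cg h F, ep p (a * h.eval P.1)).im = 0 := by
  rw [← Complex.conj_eq_iff_im, map_sum]
  refine Finset.sum_nbij' Prod.swap Prod.swap ?_ ?_ ?_ ?_ ?_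
  · intro P hP
    rw [mem_Cg] at hP ⊢
    exact ⟨(hsym _ _).mp hP.1, hP.2.2, hP.2.1⟩
  · intro P hP
    rw [mem_Cg] at hP ⊢
    exact ⟨(hsym _ _).mp hP.1, hP.2.2, hP.2.1⟩
  · intro P _; exact Prod.swap_swap P
  · intro P _; exact Prod.swap_swap P
  · intro P hP
    rw [mem_Cg] at hP
    rw [ep_conj]
    congr 1
    have h1 := on_curve hF hP.1
    rw [Prod.fst_swap, eq_neg_of_add_eq_zero_right h1]
    ring

/-- few points are removed -/
lemma card_diff {h : (ZMod p)[X]} {F : (ZMod p)[X][X]} {d : ℕ} (hF : GoodFac h F d)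
    (hsym : ∀ x y : ZMod p, evXY F x y = 0 ↔ evXY F y x = 0) (hne : derivative h ≠ 0) :
    (Cu F \ Cg h F).card ≤ 2 * (h.natDegree * d) := by
  classical
  set T : Finset (ZMod p) := Finset.univ.filter (fun x => h.derivative.eval x = 0) with hT
  have hTc : T.card ≤ h.natDegree := by
    have hsub : T ⊆ (derivative h).roots.toFinset := by
      intro z hz
      rw [hT, Finset.mem_filter] at hz
      rw [Multiset.mem_toFinset, mem_roots hne]
      exact hz.2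
    refine (Finset.card_le_card hsub).trans ((Multiset.toFinset_card_le _).trans ?_)
    refine (card_roots' _).trans ((natDegree_derivative_le _).trans (Nat.sub_le _ _))
  have h1 : ((Cu F).filter (fun P => P.1 ∈ T)).card ≤ h.natDegree * d :=
    (card_Cu_filter hF T).trans (Nat.mul_le_mul_right _ hTc)
  have h2 : ((Cu F).filter (fun P => P.2 ∈ T)).card ≤ h.natDegree * d := by
    refine le_trans ?_ h1
    refine Finset.card_le_card_of_injOn Prod.swap ?_ (Prod.swap_injective.injOn)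
    intro P hP
    rw [Finset.mem_coe, Finset.mem_filter, mem_Cu] at hP ⊢
    exact ⟨(hsym _ _).mp hP.1, hP.2⟩
  have h3 : Cu F \ Cg h F ⊆ (Cu F).filter (fun P => P.1 ∈ T) ∪ (Cu F).filter (fun P => P.2 ∈ T) := by
    intro P hP
    rw [Finset.mem_sdiff, mem_Cg] at hP
    rw [Finset.mem_union, Finset.mem_filter, Finset.mem_filter, hT, Finset.mem_filter,
      Finset.mem_filter]
    by_cases h4 : h.derivative.eval P.1 = 0
    · exact Or.inl ⟨hP.1, Finset.mem_univ _, h4⟩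
    · right
      refine ⟨hP.1, Finset.mem_univ _, ?_⟩
      by_contra h5
      exact hP.2 ⟨(mem_Cu F P).mp hP.1, h4, h5⟩
  refine (Finset.card_le_card h3).trans ((Finset.card_union_le _ _).trans ?_)
  omega

/-- the weights -/
noncomputable def wt (h : (ZMod p)[X]) (F : (ZMod p)[X][X]) (x : ZMod p) : ℝ :=
  (p : ℝ) / ((Cg h F).card : ℝ) * (((Cg h F).filter (fun P => P.1 = x)).card : ℝ)

lemma wt_sum (h : (ZMod p)[X]) (F : (ZMod p)[X][X]) (g : ZMod p → ℂ) :
    ∑ x, (wt h F x : ℂ) * g x = ((p : ℝ) / ((Cg h F).card : ℝ) : ℝ) * ∑ P ∈ Cg h F, g P.1 := by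
  rw [← Finset.sum_fiberwise_of_maps_to (g := fun P : ZMod p × ZMod p => P.1) (t := Finset.univ)
    (fun _ _ => Finset.mem_univ _), Finset.mul_sum]
  refine Finset.sum_congr rfl fun x _ => ?_
  rw [Finset.sum_congr rfl (g := fun _ => g x), Finset.sum_const, wt, nsmul_eq_mul]
  · push_cast
    ring
  · intro P hP
    rw [(Finset.mem_filter.mp hP).2]

lemma rpow34 : (((p : ℕ) : ℝ) ^ (3 / 4 : ℝ)) ^ 2 = p * Real.sqrt p := by
  have hp0 : (0 : ℝ) < p := by exact_mod_cast (Fact.out : p.Prime).pos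
  rw [Real.sqrt_eq_rpow, ← Real.rpow_natCast, ← Real.rpow_mul hp0.le]
  nth_rewrite 2 [← Real.rpow_one (p : ℝ)]
  rw [← Real.rpow_add hp0]
  norm_num

/-- square root of the core estimate -/
lemma bound_core (S k A Q : ℝ) (hS : 0 ≤ S) (hk : 0 ≤ k) (hA : 0 ≤ A) (hQ : 0 ≤ Q)
    (hQ2 : Q ^ 2 = p * Real.sqrt p)
    (h : S ^ 2 ≤ A * (p * Real.sqrt p) + 2 * (3 * k ^ 2) * k ^ 3 * p) :
    S ≤ (A + 6 * k ^ 5 + 1) * Q := by
  have hp1 : (1 : ℝ) ≤ p := by exact_mod_cast (Fact.out : p.Prime).one_lt.le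
  have hsq1 : 1 ≤ Real.sqrt p := by
    rw [Real.one_le_sqrt]; exact hp1
  have h3 : (p : ℝ) ≤ p * Real.sqrt p := le_mul_of_one_le_right (by linarith) hsq1
  have h2 : 2 * (3 * k ^ 2) * k ^ 3 * p ≤ 6 * k ^ 5 * (p * Real.sqrt p) := by
    calc 2 * (3 * k ^ 2) * k ^ 3 * p = 6 * k ^ 5 * p := by ring
      _ ≤ 6 * k ^ 5 * (p * Real.sqrt p) := mul_le_mul_of_nonneg_left h3 (by positivity)
  have hM : 0 ≤ A + 6 * k ^ 5 := by positivity
  have h4 : S ^ 2 ≤ ((A + 6 * k ^ 5 + 1) * Q) ^ 2 := by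
    calc S ^ 2 ≤ A * (p * Real.sqrt p) + 6 * k ^ 5 * (p * Real.sqrt p) := h.trans (by linarith)
      _ = (A + 6 * k ^ 5) * Q ^ 2 := by rw [hQ2]; ring
      _ ≤ (A + 6 * k ^ 5 + 1) ^ 2 * Q ^ 2 :=
        mul_le_mul_of_nonneg_right (by nlinarith) (by positivity)
      _ = ((A + 6 * k ^ 5 + 1) * Q) ^ 2 := by ring
  exact (pow_le_pow_iff_left₀ hS (by positivity) two_ne_zero).mp h4

/-- removing few points -/
lemma bound_sub (C C' : Finset (ZMod p × ZMod p)) (hsub : C' ⊆ C) (g : ZMod p × ZMod p → ZMod p)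
    (b c : ℝ) (h : ‖∑ P ∈ C, ep p (g P)‖ ≤ b) (hc : ((C \ C').card : ℝ) ≤ c) :
    ‖∑ P ∈ C', ep p (g P)‖ ≤ b + c := by
  have h5 : ∑ P ∈ C', ep p (g P) = ∑ P ∈ C, ep p (g P) - ∑ P ∈ C \ C', ep p (g P) := by
    rw [← Finset.sum_sdiff hsub]
    ring
  rw [h5]
  refine (norm_sub_le _ _).trans (add_le_add h ?_)
  refine (norm_sum_le _ _).trans ?_
  rw [Finset.sum_congr rfl (fun P _ => ep_norm (g P)), Finset.sum_const, nsmul_eq_mul, mul_one]
  exact hc

end W4P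

open W4P in
/-- block W4 -/
theorem evenWeight (hW1 : W1) (hL : CurveLower) (hU : CurveUpper) : EvenWeight := by
  classical
  intro k hk
  obtain ⟨K₁, hK₁⟩ := hL k hk
  obtain ⟨K₂, P₀, hK₂⟩ := hU k hk
  set A₁ : ℝ := max K₁ 0 with hA₁
  set A₂ : ℝ := max K₂ 0 with hA₂
  have hA₁0 : 0 ≤ A₁ := le_max_right _ _
  have hA₂0 : 0 ≤ A₂ := le_max_right _ _
  set M : ℝ := 2 * A₁ + 2 * A₂ + 6 * (k : ℝ) ^ 5 with hM
  have hk0 : (0 : ℝ) ≤ k := Nat.cast_nonneg _
  have hk2 : (2 : ℝ) ≤ k := by exact_mod_cast hk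
  have hM0 : 0 ≤ M := by positivity
  refine ⟨2 * (M + 1) + 4 * (k : ℝ) ^ 2, P₀ + (k + 1) + ⌈16 * A₁ ^ 2⌉₊ + 8 * k ^ 2, by positivity,
    ?_⟩
  intro p _ hp h r hdeg hr hr'
  have hp0 : (0 : ℝ) ≤ p := Nat.cast_nonneg _
  have hp1 : (1 : ℝ) ≤ p := by exact_mod_cast (Fact.out : p.Prime).one_lt.le
  have hP₀ : P₀ ≤ p := by omega
  have hkp : k < p := by omega
  have hpA : 16 * A₁ ^ 2 ≤ (p : ℝ) := (Nat.le_ceil _).trans (by exact_mod_cast (by omega))
  have hpk : 8 * (k : ℝ) ^ 2 ≤ p := by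
    have : 8 * k ^ 2 ≤ p := by omega
    exact_mod_cast this
  have hk1 : 1 ≤ h.natDegree := by omega
  obtain ⟨F, d, hF, hdk, hirr, hsym⟩ := hW1 p h r hk1 (by omega) hr hr'
  have hne : derivative h ≠ 0 := by
    intro h0
    rw [h0, eval_zero] at hr'
    exact hr' rfl
  rw [hdeg] at hdk
  have hdk' : (d : ℝ) ≤ k := by exact_mod_cast hdk
  have hd0 : (0 : ℝ) ≤ d := Nat.cast_nonneg _
  -- lower bound of the curve
  have hcard : (Nat.card {P : ZMod p × ZMod p // evXY F P.1 P.2 = 0}) = (Cu F).card := by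
    rw [Nat.card_eq_fintype_card, Fintype.card_subtype]
    rfl
  have hsq0 : 0 ≤ Real.sqrt p := Real.sqrt_nonneg _
  have hsq1 : 1 ≤ Real.sqrt p := by
    rw [Real.one_le_sqrt]; exact hp1
  have hsqsq : Real.sqrt p * Real.sqrt p = p := Real.mul_self_sqrt hp0
  have hlow : (p : ℝ) - A₁ * Real.sqrt p ≤ (Cu F).card := by
    have h1 := hK₁ p hkp h F d hdeg hF hirr
    rw [hcard] at h1
    have h2 : K₁ * Real.sqrt p ≤ A₁ * Real.sqrt p :=
      mul_le_mul_of_nonneg_right (le_max_left _ _) hsq0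
    linarith
  -- the bad set
  set B : Finset (ZMod p) := Finset.univ.filter (fun s =>
    Bad (h.map (algebraMap (ZMod p) (AlgebraicClosure (ZMod p))))
        (algebraMap (ZMod p) (AlgebraicClosure (ZMod p)) s)) with hBdef
  have hBc : (B.card : ℝ) ≤ 3 * (k : ℝ) ^ 2 := by
    have h1 := bad_card hne hk1 B (fun s hs => (Finset.mem_filter.mp hs).2)
    rw [hdeg] at h1
    have h2 : (B.card : ℝ) ≤ 3 * ((k : ℝ) * k) := by exact_mod_cast h1
    linarith [sq (k : ℝ)]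
  have hup : ∀ s, s ∉ B → (NN (Cu F) (fun P => h.eval P.1) s : ℝ) ≤ p + A₂ * Real.sqrt p := by
    intro s hs
    have hs' : ¬ Bad (h.map (algebraMap (ZMod p) (AlgebraicClosure (ZMod p))))
        (algebraMap (ZMod p) (AlgebraicClosure (ZMod p)) s) := by
      intro h0
      exact hs (Finset.mem_filter.mpr ⟨Finset.mem_univ _, h0⟩)
    have h1 := hK₂ p hP₀ h F d s hdeg hF hirr hs'
    have h2 : Nat.card {P : (ZMod p × ZMod p) × (ZMod p × ZMod p) //
        evXY F P.1.1 P.1.2 = 0 ∧ evXY F P.2.1 P.2.2 = 0 ∧ h.eval P.2.1 = h.eval P.1.1 + s} =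
        NN (Cu F) (fun P => h.eval P.1) s := by
      rw [Nat.card_eq_fintype_card, Fintype.card_subtype, NN]
      congr 1
      ext P
      rw [Finset.mem_filter, Finset.mem_filter, Finset.mem_product, mem_Cu, mem_Cu]
      constructor
      · rintro ⟨-, h1, h2, h3⟩
        exact ⟨⟨h1, h2⟩, h3⟩
      · rintro ⟨⟨h1, h2⟩, h3⟩
        exact ⟨Finset.mem_univ _, h1, h2, h3⟩
    rw [h2] at h1
    have h3 : K₂ * Real.sqrt p ≤ A₂ * Real.sqrt p :=
      mul_le_mul_of_nonneg_right (le_max_left _ _) hsq0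
    linarith
  have htriv : ∀ s, (NN (Cu F) (fun P => h.eval P.1) s : ℝ) ≤ (k : ℝ) ^ 3 * p := by
    intro s
    have h1 := NN_triv hF hk1 s
    rw [hdeg] at h1
    have h2 : (NN (Cu F) (fun P => h.eval P.1) s : ℝ) ≤ (p * d) * (k * d) := by exact_mod_cast h1
    have h3 : ((p : ℝ) * d) * (k * d) ≤ (p * k) * (k * k) := by
      apply mul_le_mul
      · exact mul_le_mul_of_nonneg_left hdk' hp0
      · exact mul_le_mul_of_nonneg_left hdk' hk0
      · positivity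
      · positivity
    calc (NN (Cu F) (fun P => h.eval P.1) s : ℝ) ≤ (p * d) * (k * d) := h2
      _ ≤ (p * k) * (k * k) := h3
      _ = (k : ℝ) ^ 3 * p := by ring
  -- the removed points
  have hdiff : ((Cu F \ Cg h F).card : ℝ) ≤ 2 * (k : ℝ) ^ 2 := by
    have h1 := card_diff hF hsym hne
    rw [hdeg] at h1
    have h2 : ((Cu F \ Cg h F).card : ℝ) ≤ 2 * (k * d) := by exact_mod_cast h1
    nlinarith
  have hsub : Cg h F ⊆ Cu F := Finset.filter_subset _ _
  have hcg : ((Cu F).card : ℝ) ≤ (Cg h F).card + 2 * (k : ℝ) ^ 2 := by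
    have h1 : (Cu F \ Cg h F).card + (Cg h F).card = (Cu F).card :=
      Finset.card_sdiff_add_card_eq_card hsub
    have h2 : (((Cu F \ Cg h F).card : ℝ) + (Cg h F).card) = (Cu F).card := by exact_mod_cast h1
    linarith
  have hA₁s : A₁ * Real.sqrt p ≤ p / 4 := by
    have h1 : 4 * A₁ ≤ Real.sqrt p := by
      apply Real.le_sqrt_of_sq_le
      nlinarith
    nlinarith
  have hcgp : (p : ℝ) / 2 ≤ (Cg h F).card := by linarith
  have hcg0 : (0 : ℝ) < (Cg h F).card := by linarith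
  have hρ : (p : ℝ) / (Cg h F).card ≤ 2 := by
    rw [div_le_iff₀ hcg0]; linarith
  have hρ0 : 0 ≤ (p : ℝ) / (Cg h F).card := div_nonneg hp0 hcg0.le
  have hfib : ∀ x, (((Cg h F).filter (fun P => P.1 = x)).card : ℝ) ≤ k := by
    intro x
    have h1 : ((Cg h F).filter (fun P => P.1 = x)).card ≤ d :=
      (Finset.card_le_card (Finset.filter_subset_filter _ hsub)).trans (fib_Cu hF x)
    exact_mod_cast h1.trans hdk
  refine ⟨wt h F, ?_, ?_, ?_, ?_, ?_, ?_⟩
  · intro x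
    rw [wt]
    positivity
  · intro x
    rw [wt]
    have h1 : (p : ℝ) / (Cg h F).card * (((Cg h F).filter (fun P => P.1 = x)).card : ℝ) ≤ 2 * k :=
      mul_le_mul hρ (hfib x) (Nat.cast_nonneg _) (by norm_num)
    nlinarith
  · have h1 := wt_sum h F (fun _ => 1)
    have h2 : ((∑ x, wt h F x : ℝ) : ℂ) = ((p : ℝ) : ℂ) := by
      push_cast
      simp only [mul_one] at h1
      rw [h1, Finset.sum_const, nsmul_eq_mul, mul_one]
      have h3 : ((Cg h F).card : ℂ) ≠ 0 := by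
        have := hcg0.ne'
        exact_mod_cast this
      push_cast
      field_simp
    exact_mod_cast h2
  · intro x hx
    rw [wt]
    have h1 : (Cg h F).filter (fun P => P.1 = x) = ∅ := by
      rw [Finset.filter_eq_empty_iff]
      intro P hP hPx
      rw [mem_Cg] at hP
      rw [hPx] at hP
      exact hP.2.1 hx
    rw [h1, Finset.card_empty, Nat.cast_zero, mul_zero]
  · intro a
    rw [wt_sum h F (fun x => ep p (a * h.eval x)), Complex.im_ofReal_mul, real_sum hF hsym,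
      mul_zero]
  · intro a ha
    have hcore := core (Cu F) (fun P => h.eval P.1) B A₁ A₂ ((k : ℝ) ^ 3) (3 * (k : ℝ) ^ 2)
      hA₂0 (by positivity) hBc hlow hup htriv a ha
    have hQ1 : 1 ≤ (p : ℝ) ^ (3 / 4 : ℝ) := Real.one_le_rpow hp1 (by norm_num)
    have h2 := bound_core _ (k : ℝ) (2 * A₁ + 2 * A₂) _ (norm_nonneg _) hk0 (by positivity)
      (zero_le_one.trans hQ1) rpow34 hcore
    have h4 := bound_sub (Cu F) (Cg h F) hsub (fun P => a * h.eval P.1) _ _ h2 hdiff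
    rw [wt_sum h F (fun x => ep p (a * h.eval x)), norm_mul, Complex.norm_real,
      Real.norm_of_nonneg hρ0]
    generalize (p : ℝ) ^ (3 / 4 : ℝ) = Q at *
    calc (p : ℝ) / (Cg h F).card * ‖∑ P ∈ Cg h F, ep p (a * h.eval P.1)‖
        ≤ 2 * ((2 * A₁ + 2 * A₂ + 6 * (k : ℝ) ^ 5 + 1) * Q + 2 * (k : ℝ) ^ 2) :=
          mul_le_mul hρ h4 (norm_nonneg _) (by norm_num)
      _ = 2 * (M + 1) * Q + 4 * (k : ℝ) ^ 2 * 1 := by rw [hM]; ring
      _ ≤ 2 * (M + 1) * Q + 4 * (k : ℝ) ^ 2 * Q := by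
          have := mul_le_mul_of_nonneg_left hQ1 (by positivity : (0 : ℝ) ≤ 4 * (k : ℝ) ^ 2)
          linarith
      _ = (2 * (M + 1) + 4 * (k : ℝ) ^ 2) * Q := by ring

end Vale.Agent.P042.WA
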